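import Vale.Agent.P058.Defs
import Vale.Agent.P058.Bridge

namespace Vale.Agent.Results.P058.Classification

open Vale.Agent.P058

/-- Classification of the finite Euclidean Ramsey sets by the tensor condition, over the field
generated by the coordinates, and over any field embedded in the reals that contains them. -/
theorem result (d : ℕ) (A : Finset (EuclideanSpace ℝ (Fin d))) (hA : A.Nonempty) :
    (IsRamsey A ↔ TensorCondition (coordField A) (coordField A).subtype A) ∧
    ∀ (K : Type) [Field K] [Algebra ℚ K] (e : K →+* ℝ), (∀ x ∈ A, ∀ α : Fin d, ∃ t, e t = x α) →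
      (IsRamsey A ↔ TensorCondition K e A) :=
  ⟨ramsey_iff_coordField A hA, fun K _ _ e hK => ramsey_iff_tensorCondition K e A hA hK⟩

end Vale.Agent.Results.P058.Classification
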