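import Vale.Agent.P058.Defs
import Vale.Agent.P058.Kite

namespace Vale.Agent.Results.P058.Complete

open Vale.Agent.P058

/-- Classification of finite Euclidean Ramsey sets; subtransitive sets and spherical sets with at
most five points are Ramsey; the conjecture of Leader, Russell and Walters is false. -/
theorem result :
    (∀ (d : ℕ) (A : Finset (EuclideanSpace ℝ (Fin d))), A.Nonempty →
      (IsRamsey A ↔ TensorCondition (coordField A) (coordField A).subtype A)) ∧
    (∀ (d : ℕ) (A : Finset (EuclideanSpace ℝ (Fin d))), A.Nonempty →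
      IsSubtransitive A → IsRamsey A) ∧
    (∀ (d : ℕ) (A : Finset (EuclideanSpace ℝ (Fin d))), A.Nonempty → A.card ≤ 5 →
      (∃ (z : EuclideanSpace ℝ (Fin d)) (ρ : ℝ), ∀ x ∈ A, dist x z = ρ) → IsRamsey A) ∧
    (∃ A : Finset (EuclideanSpace ℝ (Fin 2)), A.Nonempty ∧ IsRamsey A ∧ ¬ IsSubtransitive A) := by
  refine ⟨fun d A hA => ramsey_iff_coordField A hA, fun d A hA h => h.ramsey hA,
    fun d A hA h5 ⟨z, ρ, h⟩ => ramsey_of_five A hA h5 z ρ h, ?_⟩
  obtain ⟨a, h1, h2, h3⟩ := exists_transcendental_Ioo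
  exact ⟨kitePts a, ⟨!₂[-1, 0], by simp [kitePts]⟩, kite_ramsey h2 h3,
    kite_not_subtransitive h1 h2⟩

end Vale.Agent.Results.P058.Complete
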