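import Vale.Agent.P058.Defs
import Vale.Agent.P058.Kite

namespace Vale.Agent.Results.P058.LRW

open Vale.Agent.P058

/-- Both implications of the conjecture of Leader, Russell and Walters are decided. -/
theorem result :
    (∀ (d : ℕ) (A : Finset (EuclideanSpace ℝ (Fin d))), A.Nonempty →
      IsSubtransitive A → IsRamsey A) ∧
    ¬ (∀ (d : ℕ) (A : Finset (EuclideanSpace ℝ (Fin d))), A.Nonempty →
      IsRamsey A → IsSubtransitive A) := by
  refine ⟨fun d A hA h => h.ramsey hA, fun h => ?_⟩
  obtain ⟨a, h1, h2, h3⟩ := exists_transcendental_Ioo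
  exact kite_not_subtransitive h1 h2
    (h 2 (kitePts a) ⟨!₂[-1, 0], by simp [kitePts]⟩ (kite_ramsey h2 h3))

end Vale.Agent.Results.P058.LRW
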